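import Mathlib

/-!
Row 240 (S0371), Lemma A, abstract part.  A right parametrix `π ∘ S = 1 + K` on a Fréchet space of
smooth objects, with `K` = small + smoothing in every seminorm and small modulo finite rank in the
weakest seminorm, gives bounded solvability of `π c = π b`.
-/

set_option autoImplicit false

open Filter Topology

noncomputable section
namespace Crest.Agent.R240.EAbs

variable {X : Type*} [AddCommGroup X] [Module ℝ X]

/-- The Neumann series converges in all seminorms. -/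
theorem bijective_one_add (p : ℕ → Seminorm ℝ X) (hsep : ∀ x, p 0 x = 0 → x = 0)
    (hcomp : ∀ u : ℕ → X, (∀ k, Summable fun n => p k (u n)) →
      ∃ x, ∀ k, Tendsto (fun N => p k (x - ∑ n ∈ Finset.range N, u n)) atTop (𝓝 0))
    (Q : X →ₗ[ℝ] X) (h0 : ∀ x, p 0 (Q x) ≤ (1 / 2) * p 0 x)
    (hk : ∀ k, ∃ C, ∀ x, p k (Q x) ≤ (1 / 2) * p k x + C * p 0 x) :
    Function.Bijective (fun x => x + Q x) := by
  constructor
  · intro x y hxy
    have hxy' : x + Q x = y + Q y := hxy
    have h1 : x - y = - Q (x - y) := by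
      rw [map_sub]
      have : x - y + (Q x - Q y) = 0 := by
        have : x - y + (Q x - Q y) = (x + Q x) - (y + Q y) := by abel
        rw [this, hxy', sub_self]
      exact eq_neg_of_add_eq_zero_left this
    have h2 : p 0 (x - y) ≤ (1 / 2) * p 0 (x - y) := by
      calc p 0 (x - y) = p 0 (- Q (x - y)) := by rw [← h1]
        _ = p 0 (Q (x - y)) := map_neg_eq_map _ _
        _ ≤ _ := h0 _
    have h3 : p 0 (x - y) = 0 := le_antisymm (by linarith [apply_nonneg (p 0) (x - y)])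
      (apply_nonneg _ _)
    exact sub_eq_zero.mp (hsep _ h3)
  · intro w
    set u : ℕ → X := fun n => ((-Q) ^ n) w with hu
    have hu0 : u 0 = w := by simp [hu]
    have hus : ∀ n, u (n + 1) = - Q (u n) := by
      intro n
      simp only [hu, pow_succ']
      rfl
    have hp0 : ∀ n, p 0 (u n) ≤ (1 / 2) ^ n * p 0 w := by
      intro n
      induction n with
      | zero => simp [hu0]
      | succ n ih =>
        rw [hus, map_neg_eq_map]
        calc p 0 (Q (u n)) ≤ (1 / 2) * p 0 (u n) := h0 _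
          _ ≤ (1 / 2) * ((1 / 2) ^ n * p 0 w) := by gcongr
          _ = _ := by ring
    have hpk : ∀ k, Summable fun n => p k (u n) := by
      intro k
      obtain ⟨C, hC⟩ := hk k
      have hbd : ∀ n : ℕ, p k (u n) ≤ (p k w + 2 * |C| * p 0 w * n) * (1 / 2) ^ n := by
        intro n
        induction n with
        | zero => simp [hu0]
        | succ n ih =>
          rw [hus, map_neg_eq_map]
          have h1 : C * p 0 (u n) ≤ |C| * ((1 / 2) ^ n * p 0 w) :=
            mul_le_mul (le_abs_self C) (hp0 n) (apply_nonneg _ _) (abs_nonneg _)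
          calc p k (Q (u n)) ≤ (1 / 2) * p k (u n) + C * p 0 (u n) := hC _
            _ ≤ (1 / 2) * ((p k w + 2 * |C| * p 0 w * n) * (1 / 2) ^ n) +
                |C| * ((1 / 2) ^ n * p 0 w) := by gcongr
            _ = _ := by push_cast; ring
      have hs1 : Summable fun n : ℕ => (1 / 2 : ℝ) ^ n := summable_geometric_two
      have hs2 : Summable fun n : ℕ => (n : ℝ) * (1 / 2 : ℝ) ^ n := by
        have := summable_pow_mul_geometric_of_norm_lt_one (R := ℝ) 1 (r := (1 / 2 : ℝ))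
          (by norm_num)
        simpa using this
      refine Summable.of_nonneg_of_le (fun n => apply_nonneg _ _) hbd ?_
      have : (fun n : ℕ => (p k w + 2 * |C| * p 0 w * n) * (1 / 2 : ℝ) ^ n) =
          fun n : ℕ => p k w * (1 / 2 : ℝ) ^ n + 2 * |C| * p 0 w * ((n : ℝ) * (1 / 2 : ℝ) ^ n) := by
        funext n; ring
      rw [this]
      exact (hs1.mul_left _).add (hs2.mul_left _)
    obtain ⟨x, hx⟩ := hcomp u hpk
    refine ⟨x, ?_⟩
    have hsum : ∀ N, (∑ n ∈ Finset.range N, u n) + Q (∑ n ∈ Finset.range N, u n) = w - u N := by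
      intro N
      induction N with
      | zero => simp [hu0]
      | succ N ih =>
        rw [Finset.sum_range_succ, map_add]
        have : (∑ n ∈ Finset.range N, u n) + u N + (Q (∑ n ∈ Finset.range N, u n) + Q (u N)) =
            ((∑ n ∈ Finset.range N, u n) + Q (∑ n ∈ Finset.range N, u n)) + u N + Q (u N) := by
          abel
        rw [this, ih, hus]
        abel
    have hle : ∀ N, p 0 (x + Q x - w) ≤
        (3 / 2) * p 0 (x - ∑ n ∈ Finset.range N, u n) + (1 / 2) ^ N * p 0 w := by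
      intro N
      set s := ∑ n ∈ Finset.range N, u n
      have h1 : x + Q x - w = (x - s) + Q (x - s) + (- u N) := by
        have := hsum N
        rw [map_sub]
        have h2 : w = s + Q s + u N := by rw [this]; abel
        rw [h2]; abel
      calc p 0 (x + Q x - w) = p 0 ((x - s) + Q (x - s) + (- u N)) := by rw [h1]
        _ ≤ p 0 ((x - s) + Q (x - s)) + p 0 (- u N) := map_add_le_add _ _ _
        _ ≤ p 0 (x - s) + p 0 (Q (x - s)) + p 0 (u N) := by
            rw [map_neg_eq_map]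
            gcongr
            exact map_add_le_add _ _ _
        _ ≤ p 0 (x - s) + (1 / 2) * p 0 (x - s) + (1 / 2) ^ N * p 0 w := by
            gcongr
            · exact h0 _
            · exact hp0 N
        _ = _ := by ring
    have hlim : Tendsto (fun N => (3 / 2) * p 0 (x - ∑ n ∈ Finset.range N, u n) +
        (1 / 2 : ℝ) ^ N * p 0 w) atTop (𝓝 0) := by
      have h1 := (hx 0).const_mul (3 / 2 : ℝ)
      have h2 := (tendsto_pow_atTop_nhds_zero_of_lt_one (r := (1 / 2 : ℝ)) (by norm_num)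
        (by norm_num)).mul_const (p 0 w)
      simpa using h1.add h2
    have hz : p 0 (x + Q x - w) ≤ 0 := ge_of_tendsto' hlim hle
    exact sub_eq_zero.mp (hsep _ (le_antisymm hz (apply_nonneg _ _)))

/-- inverse of `1 + Q` with bounds in all seminorms. -/
theorem exists_inverse (p : ℕ → Seminorm ℝ X) (hsep : ∀ x, p 0 x = 0 → x = 0)
    (hcomp : ∀ u : ℕ → X, (∀ k, Summable fun n => p k (u n)) →
      ∃ x, ∀ k, Tendsto (fun N => p k (x - ∑ n ∈ Finset.range N, u n)) atTop (𝓝 0))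
    (Q : X →ₗ[ℝ] X) (h0 : ∀ x, p 0 (Q x) ≤ (1 / 2) * p 0 x)
    (hk : ∀ k, ∃ C, ∀ x, p k (Q x) ≤ (1 / 2) * p k x + C * p 0 x) :
    ∃ G : X →ₗ[ℝ] X, (∀ x, G x + Q (G x) = x) ∧ (∀ x, G (x + Q x) = x) ∧
      (∀ x, p 0 (G x) ≤ 2 * p 0 x) ∧
      ∀ k, ∃ C, 0 ≤ C ∧ ∀ x, p k (G x) ≤ 2 * p k x + C * p 0 x := by
  have hb := bijective_one_add p hsep hcomp Q h0 hk
  set T : X →ₗ[ℝ] X := LinearMap.id + Q with hT
  have hT' : (T : X → X) = fun x => x + Q x := by
    funext x; simp [hT]
  have hbT : Function.Bijective T := by rw [hT']; exact hb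
  set e := LinearEquiv.ofBijective T hbT with he
  have he' : ∀ x, e x = x + Q x := fun x => by
    rw [he, LinearEquiv.ofBijective_apply, hT']
  have hG : ∀ x, e.symm x + Q (e.symm x) = x := fun x => by
    rw [← he', LinearEquiv.apply_symm_apply]
  have hG0 : ∀ x, p 0 (e.symm x) ≤ 2 * p 0 x := by
    intro x
    have h1 : e.symm x = x - Q (e.symm x) := eq_sub_of_add_eq (hG x)
    have h2 : p 0 (e.symm x) ≤ p 0 x + p 0 (Q (e.symm x)) := by
      conv_lhs => rw [h1]
      exact map_sub_le_add _ _ _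
    linarith [h0 (e.symm x)]
  refine ⟨e.symm.toLinearMap, hG, fun x => ?_, hG0, fun k => ?_⟩
  · have : e.symm (x + Q x) = x := by rw [← he', LinearEquiv.symm_apply_apply]
    exact this
  · obtain ⟨C, hC⟩ := hk k
    refine ⟨4 * |C|, by positivity, fun x => ?_⟩
    have h1 : e.symm x = x - Q (e.symm x) := eq_sub_of_add_eq (hG x)
    have h2 : p k (e.symm x) ≤ p k x + p k (Q (e.symm x)) := by
      conv_lhs => rw [h1]
      exact map_sub_le_add _ _ _
    have h3 : C * p 0 (e.symm x) ≤ |C| * (2 * p 0 x) :=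
      mul_le_mul (le_abs_self C) (hG0 x) (apply_nonneg _ _) (abs_nonneg _)
    have h4 := hC (e.symm x)
    change p k (e.symm x) ≤ _
    linarith

theorem map_sum_le_sum_aux {Y : Type*} [AddCommGroup Y] [Module ℝ Y] (q : Seminorm ℝ Y) {n : ℕ}
    (s : Finset (Fin n)) (g : Fin n → Y) : q (∑ j ∈ s, g j) ≤ ∑ j ∈ s, q (g j) := by
  classical
  induction s using Finset.induction_on with
  | empty => simp
  | insert a s ha ih =>
    rw [Finset.sum_insert ha, Finset.sum_insert ha]
    exact (map_add_le_add q _ _).trans (by gcongr)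

/-- `π c = π b` is boundedly solvable, given a right parametrix. -/
theorem lemmaA_abs {Z : Type*} [AddCommGroup Z] [Module ℝ Z] (p : ℕ → Seminorm ℝ X)
    (hsep : ∀ x, p 0 x = 0 → x = 0)
    (hcomp : ∀ u : ℕ → X, (∀ k, Summable fun n => p k (u n)) →
      ∃ x, ∀ k, Tendsto (fun N => p k (x - ∑ n ∈ Finset.range N, u n)) atTop (𝓝 0))
    (K : X →ₗ[ℝ] X) {n : ℕ} (l : Fin n → X →ₗ[ℝ] ℝ) (f : Fin n → X) (Cl : ℝ)
    (hl : ∀ j x, |l j x| ≤ Cl * p 0 x)
    (h0 : ∀ x, p 0 (K x - ∑ j, l j x • f j) ≤ (1 / 2) * p 0 x)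
    (hk : ∀ k, ∃ C, ∀ x, p k (K x) ≤ (1 / 2) * p k x + C * p 0 x)
    (N : Seminorm ℝ Z) (π : Z →ₗ[ℝ] X) (S : X →ₗ[ℝ] Z) (hS : ∀ w, π (S w) = w + K w)
    (m : ℕ) (hN : ∃ C, ∀ w, N (S w) ≤ C * (p 0 w + p m w)) :
    ∃ C, 0 ≤ C ∧ ∀ b, ∃ c, π c = π b ∧ N c ≤ C * (p 0 (π b) + p m (π b)) := by
  classical
  set F : X →ₗ[ℝ] X := ∑ j, (l j).smulRight (f j) with hF
  have hFx : ∀ x, F x = ∑ j, l j x • f j := fun x => by
    simp [hF, LinearMap.sum_apply]
  set Q : X →ₗ[ℝ] X := K - F with hQ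
  have hQ0 : ∀ x, p 0 (Q x) ≤ (1 / 2) * p 0 x := fun x => by
    rw [hQ, LinearMap.sub_apply, hFx]; exact h0 x
  have hFk : ∀ k x, p k (F x) ≤ (∑ j, |Cl| * p k (f j)) * p 0 x := by
    intro k x
    rw [hFx, Finset.sum_mul]
    refine (map_sum_le_sum_aux (p k) _ _).trans (Finset.sum_le_sum fun j _ => ?_)
    rw [map_smul_eq_mul, Real.norm_eq_abs]
    have h1 : |l j x| ≤ |Cl| * p 0 x := (hl j x).trans (by gcongr; exact le_abs_self _)
    calc |l j x| * p k (f j) ≤ (|Cl| * p 0 x) * p k (f j) := by gcongr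
      _ = _ := by ring
  have hQk : ∀ k, ∃ C, ∀ x, p k (Q x) ≤ (1 / 2) * p k x + C * p 0 x := by
    intro k
    obtain ⟨C, hC⟩ := hk k
    refine ⟨C + ∑ j, |Cl| * p k (f j), fun x => ?_⟩
    calc p k (Q x) = p k (K x - F x) := by rw [hQ, LinearMap.sub_apply]
      _ ≤ p k (K x) + p k (F x) := map_sub_le_add _ _ _
      _ ≤ ((1 / 2) * p k x + C * p 0 x) + (∑ j, |Cl| * p k (f j)) * p 0 x :=
          add_le_add (hC x) (hFk k x)
      _ = _ := by ring
  obtain ⟨G, hG1, -, hG0, hGk⟩ := exists_inverse p hsep hcomp Q hQ0 hQk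
  obtain ⟨CN, hCN⟩ := hN
  obtain ⟨Cm, hCm0, hCm⟩ := hGk m
  -- the linear section
  set Φ : (Fin n → ℝ) →ₗ[ℝ] X := ∑ j, (LinearMap.proj j : (Fin n → ℝ) →ₗ[ℝ] ℝ).smulRight (f j)
    with hΦ
  have hΦx : ∀ t, Φ t = ∑ j, t j • f j := fun t => by simp [hΦ, LinearMap.sum_apply]
  set T : Submodule ℝ (Fin n → ℝ) := (LinearMap.range π).comap Φ with hT
  obtain ⟨ρ, hρ⟩ := LinearMap.exists_rightInverse_of_surjective π.rangeRestrict
    (LinearMap.range_rangeRestrict π)
  set φ₀ : T →ₗ[ℝ] Z := ρ.comp (Φ.restrict (p := T) (q := LinearMap.range π) (fun t ht => ht))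
    with hφ₀
  obtain ⟨φ, hφ⟩ := LinearMap.exists_extend φ₀
  have hπφ : ∀ t ∈ T, π (φ t) = Φ t := by
    intro t ht
    have h1 : φ t = φ₀ ⟨t, ht⟩ := by
      rw [← hφ]; rfl
    rw [h1, hφ₀]
    have h2 : π.rangeRestrict (ρ ((Φ.restrict (p := T) (q := LinearMap.range π)
        (fun t ht => ht)) ⟨t, ht⟩)) = (Φ.restrict (p := T) (q := LinearMap.range π)
        (fun t ht => ht)) ⟨t, ht⟩ :=
      congrArg (fun L : LinearMap.range π →ₗ[ℝ] LinearMap.range π =>
        L ((Φ.restrict (p := T) (q := LinearMap.range π) (fun t ht => ht)) ⟨t, ht⟩)) hρ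
    exact congrArg Subtype.val h2
  have hNφ : ∀ t : Fin n → ℝ, N (φ t) ≤ ∑ j, |t j| * N (φ (Pi.single j 1)) := by
    intro t
    have h1 : t = ∑ j, t j • (Pi.single j (1 : ℝ) : Fin n → ℝ) := by
      funext i
      simp [Finset.sum_apply, Pi.single_apply]
    have h2 : φ t = ∑ j, t j • φ (Pi.single j 1) := by
      conv_lhs => rw [h1]
      rw [map_sum]
      simp
    rw [h2]
    refine (map_sum_le_sum_aux N _ _).trans (Finset.sum_le_sum fun j _ => ?_)
    rw [map_smul_eq_mul, Real.norm_eq_abs]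
  set Cφ : ℝ := ∑ j : Fin n, 2 * |Cl| * N (φ (Pi.single j 1)) with hCφ
  have hCφ0 : 0 ≤ Cφ := Finset.sum_nonneg fun j _ => by positivity
  refine ⟨|CN| * (2 + Cm + 2) + Cφ, by positivity, fun b => ?_⟩
  set v := π b with hv
  set t : Fin n → ℝ := fun j => l j (G v) with ht
  have hFG : F (G v) = Φ t := by rw [hFx, hΦx]
  have hπS : π (S (G v)) = v + F (G v) := by
    rw [hS]
    have h1 : G v + Q (G v) = v := hG1 v
    have h2 : Q (G v) = K (G v) - F (G v) := by rw [hQ, LinearMap.sub_apply]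
    have h3 : G v + K (G v) = (G v + Q (G v)) + F (G v) := by rw [h2]; abel
    rw [h3, h1]
  have htT : t ∈ T := by
    rw [hT, Submodule.mem_comap, ← hFG]
    exact ⟨S (G v) - b, by rw [map_sub, hπS]; abel⟩
  refine ⟨S (G v) - φ t, ?_, ?_⟩
  · rw [map_sub, hπS, hπφ t htT, hFG]; abel
  · have h1 : N (S (G v)) ≤ |CN| * (2 + Cm + 2) * (p 0 v + p m v) := by
      have h2 := hCN (G v)
      have h3 : p 0 (G v) + p m (G v) ≤ (2 + Cm + 2) * (p 0 v + p m v) := by
        have h4 := hG0 v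
        have h5 := hCm v
        have h6 := apply_nonneg (p 0) v
        have h7 := apply_nonneg (p m) v
        nlinarith [mul_nonneg hCm0 h7]
      calc N (S (G v)) ≤ CN * (p 0 (G v) + p m (G v)) := h2
        _ ≤ |CN| * (p 0 (G v) + p m (G v)) := by
            have := add_nonneg (apply_nonneg (p 0) (G v)) (apply_nonneg (p m) (G v))
            exact mul_le_mul_of_nonneg_right (le_abs_self _) this
        _ ≤ |CN| * ((2 + Cm + 2) * (p 0 v + p m v)) := by gcongr
        _ = _ := by ring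
    have h8 : N (φ t) ≤ Cφ * (p 0 v + p m v) := by
      refine (hNφ t).trans ?_
      rw [hCφ, Finset.sum_mul]
      refine Finset.sum_le_sum fun j _ => ?_
      have h9 : |t j| ≤ 2 * |Cl| * (p 0 v + p m v) := by
        have h10 := hl j (G v)
        have h11 := hG0 v
        have h12 := apply_nonneg (p 0) (G v)
        have h13 := apply_nonneg (p m) v
        have h14 := apply_nonneg (p 0) v
        calc |t j| ≤ Cl * p 0 (G v) := h10
          _ ≤ |Cl| * p 0 (G v) := mul_le_mul_of_nonneg_right (le_abs_self _) h12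
          _ ≤ |Cl| * (2 * p 0 v) := by gcongr
          _ ≤ 2 * |Cl| * (p 0 v + p m v) := by nlinarith [abs_nonneg Cl, mul_nonneg (abs_nonneg Cl) h13]
      have h15 := apply_nonneg N (φ (Pi.single j 1))
      calc |t j| * N (φ (Pi.single j 1)) ≤ (2 * |Cl| * (p 0 v + p m v)) * N (φ (Pi.single j 1)) := by
            gcongr
        _ = _ := by ring
    calc N (S (G v) - φ t) ≤ N (S (G v)) + N (φ t) := map_sub_le_add _ _ _
      _ ≤ |CN| * (2 + Cm + 2) * (p 0 v + p m v) + Cφ * (p 0 v + p m v) := add_le_add h1 h8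
      _ = _ := by ring

end Crest.Agent.R240.EAbs
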