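import Crest.Agent.R240.A.OpThm

/-!
# Finite rank clause of `Ell.LocalThm` (row 240)
-/

namespace Crest.Agent.R240.Wk

open MeasureTheory Set Filter Topology Metric
open scoped ContDiff

noncomputable section

theorem finrank_clause (J : E4 → E4 →L[ℝ] E4) (U V : Set E4) (hU : Bornology.IsBounded U)
    {k : E4 → E4 → (Bil →L[ℝ] Bil)} (hk : Ell.WK k) (S : Set E4) (hS : IsCompact S)
    (hSV : S ⊆ V) (hkS : ∀ x z, x ∉ S → k x z = 0) (halt : ∀ x z b, Alt (k x z b))
    (hanti : ∀ x z b u v, k x z b (J x u) (J x v) = - k x z b u v) :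
    ∀ (θ : ℝ), 0 < θ → ∃ (n : ℕ) (φ : Fin n → E4 → Bil) (l : Fin n → (E4 → Bil) → ℝ) (C : ℝ),
        (∀ j, Ell.Test J V (φ j)) ∧
        (∀ j f g, Ell.Test J U f → Ell.Test J U g → l j (f + g) = l j f + l j g) ∧
        (∀ j (c : ℝ) f, Ell.Test J U f → l j (c • f) = c * l j f) ∧
        (∀ j f B, Ell.Test J U f → Ell.CkB 0 f B → |l j f| ≤ C * B) ∧
        (∀ f B, Ell.Test J U f → Ell.CkB 0 f B →
          Ell.CkB 0 (fun x => Ell.op k f x - ∑ j, l j f • φ j x) (θ * B)) := by
  intro θ hθ
  obtain ⟨R, hR⟩ := hU.subset_ball (0 : E4)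
  obtain ⟨n, w, l, C, hw, hwk, hadd, hsmul, hbd, happ⟩ := (opThm Bil Bil k hk).2.2.2 θ R hθ
  set N := Module.finrank ℝ Bil with hN
  set e : Module.Basis (Fin N) ℝ Bil := Module.finBasis ℝ Bil with he
  set co : Fin N → (Bil →L[ℝ] ℝ) := fun i => LinearMap.toContinuousLinearMap (e.coord i) with hco
  have hco' : ∀ i b, co i b = e.repr b i := fun i b => rfl
  have hsum : ∀ b : Bil, ∑ i, co i b • e i = b := fun b => e.sum_repr b
  set E := finProdFinEquiv (m := n) (n := N) with hE
  -- the functions `w j x (e i)` vanish off `S`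
  have hwS : ∀ j x, x ∉ S → w j x = 0 := by
    intro j x hx
    obtain ⟨z, _, c, hc⟩ := hwk j x
    rw [hc, hkS x z hx, smul_zero]
  have hzero : ∀ (j : Fin n) (i : Fin N) x, x ∉ S → w j x (e i) = 0 := by
    intro j i x hx
    rw [hwS j x hx]
    rfl
  refine ⟨n * N, fun a x => w (E.symm a).1 x (e (E.symm a).2),
    fun a f => co (E.symm a).2 (l (E.symm a).1 f), (∑ i, ‖co i‖) * |C|, ?_, ?_, ?_, ?_, ?_⟩
  · intro a
    refine ⟨?_, ?_, ?_, ?_, ?_⟩
    · exact (hw _).clm_apply contDiff_const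
    · exact HasCompactSupport.intro hS (fun x hx => hzero _ _ x hx)
    · refine (closure_minimal ?_ hS.isClosed).trans hSV
      intro x hx
      by_contra hxS
      exact hx (hzero _ _ x hxS)
    · intro x v
      obtain ⟨z, _, c, hc⟩ := hwk (E.symm a).1 x
      show w (E.symm a).1 x (e (E.symm a).2) v v = 0
      rw [hc]
      show c • (k x z (e (E.symm a).2) v v) = 0
      rw [halt x z _ v, smul_zero]
    · intro x u v
      obtain ⟨z, _, c, hc⟩ := hwk (E.symm a).1 x
      show w (E.symm a).1 x (e (E.symm a).2) (J x u) (J x v) =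
        - w (E.symm a).1 x (e (E.symm a).2) u v
      rw [hc]
      show c • (k x z (e (E.symm a).2) (J x u) (J x v)) = - (c • (k x z (e (E.symm a).2) u v))
      rw [hanti x z _ u v, smul_neg]
  · intro a f g hf hg
    show co _ (l _ (f + g)) = co _ (l _ f) + co _ (l _ g)
    rw [hadd _ f g hf.smooth hf.cpt hg.smooth hg.cpt, map_add]
  · intro a c f _
    show co _ (l _ (c • f)) = c * co _ (l _ f)
    rw [hsmul, map_smul, smul_eq_mul]
  · intro a f B hf hB
    have hB0 : 0 ≤ B := (norm_nonneg _).trans (hB 0 le_rfl 0)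
    have h1 := hbd (E.symm a).1 f B hf.smooth hf.cpt hB
    have h2 : ‖co (E.symm a).2‖ ≤ ∑ i, ‖co i‖ :=
      Finset.single_le_sum (f := fun i => ‖co i‖) (fun i _ => norm_nonneg _) (Finset.mem_univ _)
    calc |co (E.symm a).2 (l (E.symm a).1 f)| ≤ ‖co (E.symm a).2‖ * ‖l (E.symm a).1 f‖ :=
          (co (E.symm a).2).le_opNorm _
      _ ≤ (∑ i, ‖co i‖) * (|C| * B) := by
          refine mul_le_mul h2 (h1.trans ?_) (norm_nonneg _)
            (Finset.sum_nonneg fun i _ => norm_nonneg _)
          exact mul_le_mul_of_nonneg_right (le_abs_self C) hB0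
      _ = (∑ i, ‖co i‖) * |C| * B := by ring
  · intro f B hf hB
    have h1 := happ f B hf.smooth ?_ hB
    · have h2 : (fun x => Ell.op k f x - ∑ a, co (E.symm a).2 (l (E.symm a).1 f) •
          w (E.symm a).1 x (e (E.symm a).2)) = fun x => Ell.op k f x - ∑ j, w j x (l j f) := by
        funext x
        congr 1
        rw [Equiv.sum_comp E.symm
          (fun p : Fin n × Fin N => co p.2 (l p.1 f) • w p.1 x (e p.2)), Fintype.sum_prod_type]
        refine Finset.sum_congr rfl fun j _ => ?_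
        conv_rhs => rw [← hsum (l j f)]
        rw [map_sum]
        refine Finset.sum_congr rfl fun i _ => ?_
        rw [map_smul]
      show Ell.CkB 0 (fun x => Ell.op k f x - ∑ a, co (E.symm a).2 (l (E.symm a).1 f) •
          w (E.symm a).1 x (e (E.symm a).2)) (θ * B)
      rw [h2]
      exact h1
    · intro x hx
      by_contra hfx
      have h3 : x ∈ U := hf.supp (subset_tsupport f hfx)
      have h4 := hR h3
      rw [mem_ball, dist_zero_right] at h4
      linarith

end

end Crest.Agent.R240.Wk
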