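import Crest.Agent.R240.A.ToWK
import Crest.Agent.R240.A.Par
import Crest.Agent.R240.KKer

/-!
Row 240, Lemma A, team K (helper880): the normalisation `c_y` is smooth and positive; the kernels of
the local parametrix are weakly singular (`Ell.WK`).
-/

set_option autoImplicit false
set_option maxSynthPendingDepth 3

namespace Crest.Agent.R240.KLoc

open Crest.Agent.R240 MeasureTheory Set Filter Topology
open scoped ContDiff

noncomputable section

variable {J : E4 → E4 →L[ℝ] E4}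

/-! ### the metric -/

theorem quad_contDiff (hJ : ContDiff ℝ ∞ J) :
    ContDiff ℝ ∞ (fun p : E4 × E4 => GG (J p.1) p.2 p.2) := by
  have h1 : ContDiff ℝ ∞ (fun p : E4 × E4 => GG (J p.1)) :=
    GG_contDiff.comp (hJ.comp contDiff_fst)
  exact (h1.clm_apply contDiff_snd).clm_apply contDiff_snd

theorem GG_smul_smul (A : E4 →L[ℝ] E4) (t : ℝ) (z : E4) :
    GG A (t • z) (t • z) = t ^ 2 * GG A z z := by
  rw [map_smul, map_smul]
  change t * (t * GG A z z) = _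
  ring

/-! ### the normalisation -/

/-- `c_y = ∫ 2 (G_y(w,w) + 1)⁻³ dw` -/
def cJ (J : E4 → E4 →L[ℝ] E4) (y : E4) : ℝ := ∫ w : E4, 2 * ((GG (J y) w w + 1)⁻¹) ^ 3

theorem integrable_base : Integrable (fun w : E4 => ((1 + ‖w‖ ^ 2)⁻¹) ^ 3) := by
  have hd : Module.finrank ℝ E4 = 4 := finrank_euclideanSpace_fin
  have h := integrable_rpow_neg_one_add_norm_sq (E := E4) (μ := volume) (r := 6)
    (by rw [hd]; norm_num)
  refine h.congr (Eventually.of_forall fun w => ?_)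
  have h0 : (0 : ℝ) ≤ 1 + ‖w‖ ^ 2 := by positivity
  simp only
  rw [show (-(6 : ℝ) / 2) = -((3 : ℕ) : ℝ) by norm_num, Real.rpow_neg h0, Real.rpow_natCast, inv_pow]

theorem cInt_nonneg (A : E4 →L[ℝ] E4) (w : E4) : 0 ≤ 2 * ((GG A w w + 1)⁻¹) ^ 3 := by
  have := GG_nonneg A w
  positivity

theorem cInt_le (A : E4 →L[ℝ] E4) (w : E4) :
    2 * ((GG A w w + 1)⁻¹) ^ 3 ≤ 2 * ((1 + ‖w‖ ^ 2)⁻¹) ^ 3 := by
  have h1 := GG_ge A w
  have h2 : (GG A w w + 1)⁻¹ ≤ (1 + ‖w‖ ^ 2)⁻¹ := inv_anti₀ (by positivity) (by linarith)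
  have h3 : 0 ≤ (GG A w w + 1)⁻¹ := by
    have := GG_nonneg A w
    positivity
  have := pow_le_pow_left₀ h3 h2 3
  linarith

theorem cInt_continuous (A : E4 →L[ℝ] E4) : Continuous fun w : E4 => 2 * ((GG A w w + 1)⁻¹) ^ 3 := by
  have h1 : Continuous fun w : E4 => GG A w w + 1 :=
    (((GG A).continuous).clm_apply continuous_id).add continuous_const
  exact ((h1.inv₀ fun w => by have := GG_nonneg A w; positivity).pow 3).const_mul 2

theorem integrable_cInt (A : E4 →L[ℝ] E4) : Integrable fun w : E4 => 2 * ((GG A w w + 1)⁻¹) ^ 3 := by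
  refine (integrable_base.const_mul 2).mono' (cInt_continuous A).aestronglyMeasurable
    (Eventually.of_forall fun w => ?_)
  rw [Real.norm_of_nonneg (cInt_nonneg A w)]
  exact cInt_le A w

theorem cJ_pos (J : E4 → E4 →L[ℝ] E4) (y : E4) : 0 < cJ J y := by
  unfold cJ
  rw [integral_pos_iff_support_of_nonneg (fun w => cInt_nonneg _ w) (integrable_cInt _)]
  have : Function.support (fun w : E4 => 2 * ((GG (J y) w w + 1)⁻¹) ^ 3) = univ := by
    ext w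
    have h := GG_nonneg (J y) w
    simp only [Function.mem_support, mem_univ, iff_true]
    positivity
  rw [this]
  exact isOpen_univ.measure_pos volume univ_nonempty

/-- rescaled integrand. -/
def Phi (J : E4 → E4 →L[ℝ] E4) (p : E4 × (E4 × ℝ)) : ℝ :=
  2 * ((GG (J p.1) p.2.1 p.2.1 + p.2.2)⁻¹) ^ 3

/-- its domain. -/
def PU : Set (E4 × ℝ) := {p | 0 < ‖p.1‖ ^ 2 + p.2}

/-- compact parameter set. -/
def PK : Set (E4 × ℝ) := {p | ‖p.1‖ ^ 2 + p.2 = 1 ∧ 0 ≤ p.2}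

theorem PU_open : IsOpen PU := by
  refine isOpen_lt continuous_const ?_
  fun_prop

theorem PK_compact : IsCompact PK := by
  refine Metric.isCompact_of_isClosed_isBounded ?_ ?_
  · exact (isClosed_eq (f := fun p : E4 × ℝ => ‖p.1‖ ^ 2 + p.2) (by fun_prop)
      continuous_const).inter (isClosed_le continuous_const continuous_snd)
  · refine (Metric.isBounded_closedBall (x := (0 : E4 × ℝ)) (r := 1)).subset ?_
    rintro ⟨u, s⟩ ⟨h1, h2⟩
    have h1' : ‖u‖ ^ 2 + s = 1 := h1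
    have h2' : 0 ≤ s := h2
    rw [mem_closedBall_zero_iff, Prod.norm_def, max_le_iff]
    constructor
    · have : ‖u‖ ^ 2 ≤ 1 := by linarith
      show ‖u‖ ≤ 1
      nlinarith [norm_nonneg u]
    · show ‖s‖ ≤ 1
      rw [Real.norm_of_nonneg h2']
      nlinarith [sq_nonneg ‖u‖]

theorem PK_sub : PK ⊆ PU := by
  rintro ⟨u, s⟩ ⟨h1, -⟩
  have h1' : ‖u‖ ^ 2 + s = 1 := h1
  show 0 < ‖u‖ ^ 2 + s
  rw [h1']; exact one_pos

theorem Phi_contDiffOn (hJ : ContDiff ℝ ∞ J) : ContDiffOn ℝ ∞ (Phi J) (univ ×ˢ PU) := by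
  have hquad : ContDiff ℝ ∞ (fun p : E4 × (E4 × ℝ) => GG (J p.1) p.2.1 p.2.1 + p.2.2) :=
    ((quad_contDiff hJ).comp (contDiff_fst.prodMk (contDiff_fst.comp contDiff_snd))).add
      (contDiff_snd.comp contDiff_snd)
  unfold Phi
  refine contDiffOn_const.mul ((hquad.contDiffOn.inv ?_).pow 3)
  rintro ⟨y, u, s⟩ ⟨-, hp⟩
  have h1 : (0 : ℝ) < ‖u‖ ^ 2 + s := hp
  have h2 := GG_ge (J y) u
  show GG (J y) u u + s ≠ 0
  have : 0 < GG (J y) u u + s := by linarith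
  exact this.ne'

theorem scale_eq (J : E4 → E4 →L[ℝ] E4) (w : E4) : ∃ p ∈ PK,
    (fun y => 2 * ((GG (J y) w w + 1)⁻¹) ^ 3) =
      fun y => ((1 + ‖w‖ ^ 2)⁻¹) ^ 3 • Phi J (y, p) := by
  have hw : (0 : ℝ) < 1 + ‖w‖ ^ 2 := by positivity
  set r : ℝ := Real.sqrt (1 + ‖w‖ ^ 2) with hr
  have hr0 : 0 < r := Real.sqrt_pos.2 hw
  have hr2 : r ^ 2 = 1 + ‖w‖ ^ 2 := Real.sq_sqrt hw.le
  have hwu : w = r • (r⁻¹ • w) := by rw [smul_smul, mul_inv_cancel₀ hr0.ne', one_smul]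
  refine ⟨(r⁻¹ • w, (r ^ 2)⁻¹), ⟨?_, ?_⟩, ?_⟩
  · show ‖r⁻¹ • w‖ ^ 2 + (r ^ 2)⁻¹ = 1
    rw [norm_smul, norm_inv, Real.norm_of_nonneg hr0.le, mul_pow]
    have : ‖w‖ ^ 2 = r ^ 2 - 1 := by rw [hr2]; ring
    rw [this]
    field_simp
    ring
  · show 0 ≤ (r ^ 2)⁻¹
    positivity
  · funext y
    have e1 : GG (J y) w w + 1 = r ^ 2 * (GG (J y) (r⁻¹ • w) (r⁻¹ • w) + (r ^ 2)⁻¹) := by
      conv_lhs => rw [hwu, GG_smul_smul]
      rw [mul_add, mul_inv_cancel₀ (pow_pos hr0 2).ne']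
    rw [e1, smul_eq_mul, ← hr2]
    unfold Phi
    rw [mul_inv, mul_pow]
    ring

theorem cjoint (hJ : ContDiff ℝ ∞ J) :
    ContDiff ℝ ∞ (fun p : E4 × E4 => 2 * ((GG (J p.1) p.2 p.2 + 1)⁻¹) ^ 3) := by
  refine contDiff_const.mul ((((quad_contDiff hJ).add contDiff_const).inv ?_).pow 3)
  rintro ⟨y, u⟩
  have := GG_nonneg (J y) u
  simp only
  positivity

/-- the partial derivatives, as a function of both variables. -/
def cder (J : E4 → E4 →L[ℝ] E4) (j : ℕ) (p : E4 × E4) :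
    ContinuousMultilinearMap ℝ (fun _ : Fin j => E4) ℝ :=
  iteratedFDeriv ℝ j (fun x => 2 * ((GG (J x) p.2 p.2 + 1)⁻¹) ^ 3) p.1

theorem cder_cont (hJ : ContDiff ℝ ∞ J) (j : ℕ) : Continuous (cder J j) := by
  have h1 : ContDiffOn ℝ ∞ (cder J j) (univ ×ˢ univ) :=
    Wk.contDiffOn_iteratedFDeriv_partial
      (h := fun p : E4 × E4 => 2 * ((GG (J p.1) p.2 p.2 + 1)⁻¹) ^ 3) isOpen_univ
      (cjoint hJ).contDiffOn (m := ∞) (by exact_mod_cast le_top)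
  rw [univ_prod_univ] at h1
  exact continuousOn_univ.1 h1.continuousOn

theorem cder_cont_right (hJ : ContDiff ℝ ∞ J) (j : ℕ) (y : E4) : Continuous (fun w : E4 =>
    cder J j (y, w)) := (cder_cont hJ j).comp (Continuous.prodMk_right y)

theorem cder_meas (hJ : ContDiff ℝ ∞ J) (j : ℕ) (y : E4) : AEStronglyMeasurable (fun w : E4 =>
    cder J j (y, w)) volume := (cder_cont_right hJ j y).aestronglyMeasurable

/-- the partial derivatives of the rescaled integrand. -/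
def pder (J : E4 → E4 →L[ℝ] E4) (j : ℕ) (q : E4 × (E4 × ℝ)) :
    ContinuousMultilinearMap ℝ (fun _ : Fin j => E4) ℝ :=
  iteratedFDeriv ℝ j (fun x => Phi J (x, q.2)) q.1

theorem Phi_bound (hJ : ContDiff ℝ ∞ J) (y0 : E4) (j : ℕ) : ∃ C : ℝ, 0 ≤ C ∧
    ∀ y ∈ Metric.closedBall y0 1, ∀ p ∈ PK, ‖pder J j (y, p)‖ ≤ C := by
  have h1 : ContDiffOn ℝ ∞ (pder J j) (univ ×ˢ PU) :=
    Wk.contDiffOn_iteratedFDeriv_partial (h := Phi J) PU_open (Phi_contDiffOn hJ) (m := ∞)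
      (by exact_mod_cast le_top)
  have h2 : ContinuousOn (pder J j) (Metric.closedBall y0 1 ×ˢ PK) :=
    h1.continuousOn.mono (prod_mono (subset_univ _) PK_sub)
  obtain ⟨C, hC⟩ := ((isCompact_closedBall (y0 : E4) 1).prod
    PK_compact).exists_bound_of_continuousOn h2
  exact ⟨|C|, abs_nonneg _, fun y hy p hp => (hC (y, p) ⟨hy, hp⟩).trans (le_abs_self _)⟩

theorem cder_scale (hJ : ContDiff ℝ ∞ J) (j : ℕ) (w : E4) : ∃ p ∈ PK, ∀ y,
    cder J j (y, w) = ((1 + ‖w‖ ^ 2)⁻¹) ^ 3 • pder J j (y, p) := by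
  obtain ⟨p, hp, hfun⟩ := scale_eq J w
  refine ⟨p, hp, fun y => ?_⟩
  have hΦl : ContDiff ℝ ∞ (fun y => Phi J (y, p)) :=
    Wk.contDiff_left (h := Phi J) (Phi_contDiffOn hJ) (PK_sub hp)
  have hΦj : ContDiffAt ℝ j (fun y => Phi J (y, p)) y :=
    (hΦl.of_le (by exact_mod_cast le_top)).contDiffAt
  unfold cder pder
  simp only
  rw [hfun]
  exact iteratedFDeriv_const_smul_apply (a := ((1 + ‖w‖ ^ 2)⁻¹) ^ 3) hΦj

theorem cder_le (hJ : ContDiff ℝ ∞ J) (y0 : E4) (j : ℕ) : ∃ C : ℝ, 0 ≤ C ∧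
    ∀ w, ∀ y ∈ Metric.closedBall y0 1, ‖cder J j (y, w)‖ ≤ C * ((1 + ‖w‖ ^ 2)⁻¹) ^ 3 := by
  obtain ⟨C, hC0, hC⟩ := Phi_bound hJ y0 j
  refine ⟨C, hC0, fun w y hy => ?_⟩
  obtain ⟨p, hp, he⟩ := cder_scale hJ j w
  rw [he y, norm_smul, Real.norm_of_nonneg (by positivity), mul_comm]
  exact mul_le_mul_of_nonneg_right (hC y hy p hp) (by positivity)

/-- the integrand. -/
def cInt (J : E4 → E4 →L[ℝ] E4) (w y : E4) : ℝ := 2 * ((GG (J y) w w + 1)⁻¹) ^ 3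

theorem cInt_contDiff (hJ : ContDiff ℝ ∞ J) (w : E4) : ContDiff ℝ ∞ (cInt J w) := by
  have h : ContDiff ℝ ∞ (fun y : E4 => ((y, w) : E4 × E4)) := contDiff_id.prodMk contDiff_const
  exact ContDiff.comp (g := fun p : E4 × E4 => 2 * ((GG (J p.1) p.2 p.2 + 1)⁻¹) ^ 3)
    (f := fun y : E4 => ((y, w) : E4 × E4)) (cjoint hJ) h

theorem cInt_meas (hJ : ContDiff ℝ ∞ J) (j : ℕ) (y : E4) :
    AEStronglyMeasurable (fun w : E4 => iteratedFDeriv ℝ j (cInt J w) y) volume :=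
  cder_meas hJ j y

theorem cInt_dom (hJ : ContDiff ℝ ∞ J) (j : ℕ) (y0 : E4) : ∃ s ∈ 𝓝 y0, ∃ bound : E4 → ℝ,
    Integrable bound volume ∧
      ∀ᵐ w : E4, ∀ y ∈ s, ‖iteratedFDeriv ℝ j (cInt J w) y‖ ≤ bound w := by
  obtain ⟨C, hC0, hC⟩ := cder_le hJ y0 j
  exact ⟨Metric.closedBall y0 1, Metric.closedBall_mem_nhds y0 one_pos,
    fun w => C * ((1 + ‖w‖ ^ 2)⁻¹) ^ 3, integrable_base.const_mul C,
    Eventually.of_forall hC⟩

theorem cJ_contDiff (hJ : ContDiff ℝ ∞ J) : ContDiff ℝ ∞ (cJ J) :=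
  (Wk.contDiff_integral (μ := (volume : Measure E4)) (n := ⊤) (cInt J)
    (Eventually.of_forall fun w => cInt_contDiff hJ w)
    (fun j _ y => cInt_meas hJ j y) (fun j _ y => cInt_dom hJ j y)).1

/-! ### the homogeneous kernels -/

/-- `(c_y)⁻¹ (G_y(z,z))⁻² • ι_z` -/
def kd1 (J : E4 → E4 →L[ℝ] E4) (y z : E4) : Bil →L[ℝ] Dual4 :=
  ((cJ J y)⁻¹ * ((GG (J y) z z)⁻¹) ^ 2) • evL z

/-- its exterior derivative in `z`. -/
def kd2 (J : E4 → E4 →L[ℝ] E4) (y z : E4) : Bil →L[ℝ] Bil :=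
  (cJ J y)⁻¹ • ((2 * ((GG (J y) z z)⁻¹) ^ 2) • ContinuousLinearMap.id ℝ Bil -
    (4 * ((GG (J y) z z)⁻¹) ^ 3) • (wedL (GG (J y) z)).comp (evL z))

theorem cinv_contDiff (hJ : ContDiff ℝ ∞ J) : ContDiff ℝ ∞ (fun y => (cJ J y)⁻¹) :=
  (cJ_contDiff hJ).inv fun y => (cJ_pos J y).ne'

theorem ginv_contDiffOn (hJ : ContDiff ℝ ∞ J) :
    ContDiffOn ℝ ∞ (fun p : E4 × E4 => (GG (J p.1) p.2 p.2)⁻¹) (univ ×ˢ {0}ᶜ) := by
  refine (quad_contDiff hJ).contDiffOn.inv ?_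
  rintro ⟨y, z⟩ ⟨-, hz⟩
  exact (GG_pos (J y) hz).ne'

theorem kd1_contDiffOn (hJ : ContDiff ℝ ∞ J) :
    ContDiffOn ℝ ∞ (fun p : E4 × E4 => kd1 J p.1 p.2) (univ ×ˢ {0}ᶜ) := by
  unfold kd1
  exact (((cinv_contDiff hJ).comp contDiff_fst).contDiffOn.mul
    ((ginv_contDiffOn hJ).pow 2)).smul (evL_contDiff.comp contDiff_snd).contDiffOn

theorem kd2_contDiffOn (hJ : ContDiff ℝ ∞ J) :
    ContDiffOn ℝ ∞ (fun p : E4 × E4 => kd2 J p.1 p.2) (univ ×ˢ {0}ᶜ) := by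
  unfold kd2
  have hw : ContDiff ℝ ∞ (fun p : E4 × E4 => (wedL (GG (J p.1) p.2)).comp (evL p.2)) := by
    have h1 : ContDiff ℝ ∞ (fun p : E4 × E4 => GG (J p.1) p.2) :=
      (GG_contDiff.comp (hJ.comp contDiff_fst)).clm_apply contDiff_snd
    exact (wedL_contDiff.comp h1).clm_comp (evL_contDiff.comp contDiff_snd)
  refine ((cinv_contDiff hJ).comp contDiff_fst).contDiffOn.smul (ContDiffOn.sub ?_ ?_)
  · exact (contDiffOn_const.mul ((ginv_contDiffOn hJ).pow 2)).smul contDiffOn_const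
  · exact (contDiffOn_const.mul ((ginv_contDiffOn hJ).pow 3)).smul hw.contDiffOn

theorem evL_smul (t : ℝ) (z : E4) : evL (t • z) = t • evL z := by
  ext b
  simp [evL]

theorem wedL_smul (t : ℝ) (ξ : Dual4) : wedL (t • ξ) = t • wedL ξ := by
  ext η u v
  simp [wed_apply]
  ring

theorem kd1_SB (hJ : ContDiff ℝ ∞ J) : Wk.SB 3 (kd1 J) := by
  refine Wk.SB.of_homog (kd1_contDiffOn hJ) ?_
  intro y z hz t ht
  have hG := (GG_pos (J y) hz).ne'
  unfold kd1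
  rw [GG_smul_smul, evL_smul, smul_smul, smul_smul]
  congr 1
  field_simp

theorem kd2_SB (hJ : ContDiff ℝ ∞ J) : Wk.SB 4 (kd2 J) := by
  refine Wk.SB.of_homog (kd2_contDiffOn hJ) ?_
  intro y z hz t ht
  have hG := (GG_pos (J y) hz).ne'
  unfold kd2
  rw [GG_smul_smul, evL_smul, map_smul, wedL_smul, smul_comm ((t ^ 4)⁻¹) (cJ J y)⁻¹]
  congr 1
  rw [smul_sub, smul_smul, smul_smul]
  congr 1
  · congr 1
    field_simp
  · rw [ContinuousLinearMap.smul_comp, ContinuousLinearMap.comp_smul, smul_smul, smul_smul]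
    congr 1
    field_simp

/-! ### the two kernels of the local theorem -/

/-- kernel of the local right inverse. -/
def qK (J : E4 → E4 →L[ℝ] E4) (ζ θ : E4 → ℝ) (x z : E4) : Bil →L[ℝ] Dual4 :=
  (ζ x * θ z) • kd1 J (x - z) z

/-- kernel of the remainder. -/
def kK (J : E4 → E4 →L[ℝ] E4) (ζ θ : E4 → ℝ) (x z : E4) : Bil →L[ℝ] Bil :=
  ζ x • (θ z • ((antiL (J x) - antiL (J (x - z))).comp (kd2 J (x - z) z)) +
    (antiL (J x)).comp ((wedL (fderiv ℝ θ z)).comp (kd1 J (x - z) z)))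

theorem qK_eq (J : E4 → E4 →L[ℝ] E4) (ζ θ : E4 → ℝ) (x z : E4) :
    qK J ζ θ x z = ζ x • θ z • (cJ J (x - z))⁻¹ • ((GG (J (x - z)) z z)⁻¹) ^ 2 • evL z := by
  unfold qK kd1
  rw [smul_smul, smul_smul, smul_smul, smul_smul]
  congr 1
  ring

theorem exists_radius {ζ θ : E4 → ℝ} (hζc : HasCompactSupport ζ) (hθc : HasCompactSupport θ) :
    ∃ R : ℝ, 0 < R ∧ (∀ x, R ≤ ‖x‖ → ζ x = 0) ∧ (∀ x, R ≤ ‖x‖ → θ x = 0) ∧
      ∀ x, R ≤ ‖x‖ → fderiv ℝ θ x = 0 := by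
  obtain ⟨R1, hR1⟩ := hζc.isCompact.isBounded.subset_ball (0 : E4)
  obtain ⟨R2, hR2⟩ := hθc.isCompact.isBounded.subset_ball (0 : E4)
  refine ⟨max (max R1 R2) 1, lt_of_lt_of_le one_pos (le_max_right _ _), fun x hx => ?_,
    fun x hx => ?_, fun x hx => ?_⟩
  · refine image_eq_zero_of_notMem_tsupport fun h => ?_
    have := hR1 h
    rw [mem_ball_zero_iff] at this
    have h2 : R1 ≤ max (max R1 R2) 1 := (le_max_left _ _).trans (le_max_left _ _)
    linarith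
  · refine image_eq_zero_of_notMem_tsupport fun h => ?_
    have := hR2 h
    rw [mem_ball_zero_iff] at this
    have h2 : R2 ≤ max (max R1 R2) 1 := (le_max_right _ _).trans (le_max_left _ _)
    linarith
  · refine image_eq_zero_of_notMem_tsupport fun h => ?_
    have := hR2 (tsupport_fderiv_subset ℝ h)
    rw [mem_ball_zero_iff] at this
    have h2 : R2 ≤ max (max R1 R2) 1 := (le_max_right _ _).trans (le_max_left _ _)
    linarith

theorem wk_qK (hJ : ContDiff ℝ ∞ J) {ζ θ : E4 → ℝ} (hζ : ContDiff ℝ ∞ ζ) (hθ : ContDiff ℝ ∞ θ)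
    (hζc : HasCompactSupport ζ) (hθc : HasCompactSupport θ) : Ell.WK (qK J ζ θ) := by
  obtain ⟨R, -, h1, h2, -⟩ := exists_radius hζc hθc
  refine Wk.SB.toWK_smul (kd1_SB hJ).shift (b := fun x z => ζ x * θ z)
    ((hζ.comp contDiff_fst).mul (hθ.comp contDiff_snd)) ⟨R, fun x z h => ?_⟩
  rcases h with h | h
  · rw [h1 x h, zero_mul]
  · rw [h2 z h, mul_zero]

theorem wk_kK (hJ : ContDiff ℝ ∞ J) {ζ θ : E4 → ℝ} (hζ : ContDiff ℝ ∞ ζ) (hθ : ContDiff ℝ ∞ θ)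
    (hζc : HasCompactSupport ζ) (hθc : HasCompactSupport θ) : Ell.WK (kK J ζ θ) := by
  obtain ⟨R, -, h1, h2, h3⟩ := exists_radius hζc hθc
  -- first part
  have ha : ContDiff ℝ ∞ (fun p : E4 × E4 => antiL (J p.1)) :=
    antiL_contDiff.comp (hJ.comp contDiff_fst)
  have ha' : ContDiff ℝ ∞ (fun p : E4 × E4 => antiL (J (p.1 - p.2))) :=
    antiL_contDiff.comp (hJ.comp (contDiff_fst.sub contDiff_snd))
  have p1 : Wk.SB 3 (fun x z => (antiL (J x) - antiL (J (x - z))).comp (kd2 J (x - z) z)) :=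
    Wk.SB.of_smooth_vanish (b := fun x z => antiL (J x) - antiL (J (x - z)))
      (ha.sub ha') (fun x => by simp) (kd2_SB hJ).shift
      (ContinuousLinearMap.compL ℝ Bil Bil Bil)
  have q1 : Ell.WK (fun x z => (ζ x * θ z) •
      ((antiL (J x) - antiL (J (x - z))).comp (kd2 J (x - z) z))) := by
    refine Wk.SB.toWK_smul p1 (b := fun x z => ζ x * θ z)
      ((hζ.comp contDiff_fst).mul (hθ.comp contDiff_snd)) ⟨R, fun x z h => ?_⟩
    rcases h with h | h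
    · rw [h1 x h, zero_mul]
    · rw [h2 z h, mul_zero]
  -- second part
  have hfθ : ContDiff ℝ ∞ (fun p : E4 × E4 => fderiv ℝ θ p.2) :=
    (hθ.fderiv_right (m := ∞) (by simp)).comp contDiff_snd
  have hb : ContDiff ℝ ∞ (fun p : E4 × E4 =>
      ζ p.1 • (antiL (J p.1)).comp (wedL (fderiv ℝ θ p.2))) :=
    (hζ.comp contDiff_fst).smul (ha.clm_comp (wedL_contDiff.comp hfθ))
  have p2 : Wk.SB (0 + 3) (fun x z =>
      (ζ x • (antiL (J x)).comp (wedL (fderiv ℝ θ z))).comp (kd1 J (x - z) z)) :=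
    (Wk.SB.of_smooth (b := fun x z => ζ x • (antiL (J x)).comp (wedL (fderiv ℝ θ z))) hb).bilin
      (kd1_SB hJ).shift (ContinuousLinearMap.compL ℝ Bil Dual4 Bil)
  rw [zero_add] at p2
  have q2 : Ell.WK (fun x z =>
      (ζ x • (antiL (J x)).comp (wedL (fderiv ℝ θ z))).comp (kd1 J (x - z) z)) := by
    refine p2.toWK ⟨R, fun x z h => ?_⟩
    rcases h with h | h
    · rw [h1 x h, zero_smul, ContinuousLinearMap.zero_comp]
    · rw [h3 z h]
      have : wedL (0 : Dual4) = 0 := by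
        ext η u v
        simp [wed_apply]
      rw [this, ContinuousLinearMap.comp_zero, smul_zero, ContinuousLinearMap.zero_comp]
  -- sum
  have hk : kK J ζ θ = fun x z => (ζ x * θ z) •
      ((antiL (J x) - antiL (J (x - z))).comp (kd2 J (x - z) z)) +
      (ζ x • (antiL (J x)).comp (wedL (fderiv ℝ θ z))).comp (kd1 J (x - z) z) := by
    funext x z
    unfold kK
    rw [smul_add, smul_smul, ContinuousLinearMap.smul_comp, ContinuousLinearMap.comp_assoc]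
  rw [hk]
  refine ⟨?_, ?_, ?_⟩
  · exact q1.smooth.add q2.smooth
  · intro n
    obtain ⟨C1, hC1⟩ := q1.bound n
    obtain ⟨C2, hC2⟩ := q2.bound n
    refine ⟨C1 + C2, fun x z hz => ?_⟩
    have s1 : ContDiff ℝ ∞ (fun x => (ζ x * θ z) •
        ((antiL (J x) - antiL (J (x - z))).comp (kd2 J (x - z) z))) := by
      refine Wk.contDiff_left (h := fun p : E4 × E4 => (ζ p.1 * θ p.2) •
        ((antiL (J p.1) - antiL (J (p.1 - p.2))).comp (kd2 J (p.1 - p.2) p.2))) (U := {0}ᶜ) ?_ hz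
      have := q1.smooth
      rwa [show {p : E4 × E4 | p.2 ≠ 0} = univ ×ˢ {0}ᶜ by ext p; simp] at this
    have s2 : ContDiff ℝ ∞ (fun x =>
        (ζ x • (antiL (J x)).comp (wedL (fderiv ℝ θ z))).comp (kd1 J (x - z) z)) := by
      refine Wk.contDiff_left (h := fun p : E4 × E4 =>
        (ζ p.1 • (antiL (J p.1)).comp (wedL (fderiv ℝ θ p.2))).comp (kd1 J (p.1 - p.2) p.2))
        (U := {0}ᶜ) ?_ hz
      have := q2.smooth
      rwa [show {p : E4 × E4 | p.2 ≠ 0} = univ ×ˢ {0}ᶜ by ext p; simp] at this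
    have e := iteratedFDeriv_add_apply (i := n)
      (s1.of_le (by exact_mod_cast le_top)).contDiffAt
      (s2.of_le (by exact_mod_cast le_top)).contDiffAt (x := x) (𝕜 := ℝ)
    have e' : iteratedFDeriv ℝ n (fun x => (ζ x * θ z) •
        ((antiL (J x) - antiL (J (x - z))).comp (kd2 J (x - z) z)) +
        (ζ x • (antiL (J x)).comp (wedL (fderiv ℝ θ z))).comp (kd1 J (x - z) z)) x =
        iteratedFDeriv ℝ n (fun x => (ζ x * θ z) •
          ((antiL (J x) - antiL (J (x - z))).comp (kd2 J (x - z) z))) x +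
        iteratedFDeriv ℝ n (fun x =>
          (ζ x • (antiL (J x)).comp (wedL (fderiv ℝ θ z))).comp (kd1 J (x - z) z)) x := e
    rw [e', add_mul]
    exact (norm_add_le _ _).trans (add_le_add (hC1 x z hz) (hC2 x z hz))
  · obtain ⟨Ra, hRa⟩ := q1.supp
    obtain ⟨Rb, hRb⟩ := q2.supp
    refine ⟨max Ra Rb, fun x z h => ?_⟩
    have h5 : Ra ≤ ‖x‖ ∨ Ra ≤ ‖z‖ := h.imp (fun h => (le_max_left _ _).trans h)
      (fun h => (le_max_left _ _).trans h)
    have h6 : Rb ≤ ‖x‖ ∨ Rb ≤ ‖z‖ := h.imp (fun h => (le_max_right _ _).trans h)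
      (fun h => (le_max_right _ _).trans h)
    have e1 := hRa x z h5
    have e2 := hRb x z h6
    exact (congrArg₂ (· + ·) e1 e2).trans (add_zero 0)

end

end Crest.Agent.R240.KLoc
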